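import Vale.Agent.P224.MathlibUsed
import Vale.Agent.P224.Defs
import Vale.Agent.P224.Bdl.B2
import Vale.Agent.P224.POS.MainE2
import Vale.Agent.P224.PU.U1413.MainU
import Vale.Agent.P224.RIG.Iff
import Vale.Agent.P224.PO.AllM

namespace Vale.Agent.Results.P224.LeastVolumeGeneral

open scoped Manifold ContDiff RealInnerProductSpace
open MeasureTheory Module Vale.Agent.P224

theorem result {V W M : Type*}
    [NormedAddCommGroup V] [InnerProductSpace ℝ V] [FiniteDimensional ℝ V]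
    [MeasurableSpace V] [BorelSpace V]
    [NormedAddCommGroup W] [InnerProductSpace ℝ W] [FiniteDimensional ℝ W]
    (hV : 2 ≤ finrank ℝ V) (hW : finrank ℝ W = finrank ℝ V + 2)
    [TopologicalSpace M] [T2Space M] [CompactSpace M] [ConnectedSpace M]
    [ChartedSpace V M] [IsManifold 𝓘(ℝ, V) ∞ M] [MeasurableSpace M] [BorelSpace M]
    (F : M → W) (hF : ContMDiff 𝓘(ℝ, V) 𝓘(ℝ, W) ∞ F) (hS : ∀ x, ‖F x‖ = 1)
    (himm : ∀ x, Function.Injective (mfderiv 𝓘(ℝ, V) 𝓘(ℝ, W) F x))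
    (hmin : ∀ x n, IsUnitNormal V F x n → meanCurv V F x n = 0)
    (hng : ¬ ∃ a : W, a ≠ 0 ∧ ∀ x, ⟪F x, a⟫ = 0) :
    ENNReal.ofReal (141 / 100 * sphereVol (finrank ℝ V)) ≤ volM V F Set.univ ∧
    ENNReal.ofReal (982 / 1000 * leastClifford (finrank ℝ V)) ≤ volM V F Set.univ ∧
    (finrank ℝ V ≤ 16 →
      ENNReal.ofReal (985 / 1000 * leastClifford (finrank ℝ V)) ≤ volM V F Set.univ) ∧
    (Even (finrank ℝ V) → 4 ≤ finrank ℝ V → finrank ℝ V ≤ 16 →
      ENNReal.ofReal (leastClifford (finrank ℝ V)) ≤ volM V F Set.univ ∧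
      (volM V F Set.univ = ENNReal.ofReal (leastClifford (finrank ℝ V)) ↔
        Function.Injective F ∧ ∃ U : Submodule ℝ W, finrank ℝ U = finrank ℝ V / 2 + 1 ∧
          Set.range F =
            {z | ‖U.starProjection z‖ ^ 2 = 1 / 2 ∧ ‖z - U.starProjection z‖ ^ 2 = 1 / 2})) := by
  have hFs : SphImm V F := ⟨hF, hS, himm⟩
  borelize W
  have hc0 : 0 ≤ leastClifford (finrank ℝ V) := leastClifford_nonneg _
  have hs0 : 0 ≤ sphereVol (finrank ℝ V) := (sphereVol_pos _).le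
  have h99 := PO.main99 hV hW hFs hmin hng
  refine ⟨le_trans (ENNReal.ofReal_le_ofReal ?_) (PU.U1413.mainU hV hW hFs hmin hng),
    le_trans (ENNReal.ofReal_le_ofReal (by linarith)) h99,
    fun _ => le_trans (ENNReal.ofReal_le_ofReal (by linarith)) h99,
    fun h1 h2 h3 => ⟨POS.mainE16 h1 h2 h3 hW hFs hmin hng,
      RIG.vol_eq_iff h1 h2 h3 hW hFs hmin hng⟩⟩
  linarith

end Vale.Agent.Results.P224.LeastVolumeGeneral
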