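import Vale.Agent.Results.P224.VolumeGaps
import Vale.Agent.Results.P224.LeastVolumeGeneral

namespace Vale.Agent.Results.P224.LeastVolumeClasses

open scoped Manifold ContDiff RealInnerProductSpace
open MeasureTheory Module Vale.Agent.P224
open Vale.Agent.Results.P224.VolumeGaps (Isoms Reflections)

theorem result {V W M : Type*}
    [NormedAddCommGroup V] [InnerProductSpace ℝ V] [FiniteDimensional ℝ V]
    [MeasurableSpace V] [BorelSpace V]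
    [NormedAddCommGroup W] [InnerProductSpace ℝ W] [FiniteDimensional ℝ W]
    (hV : 2 ≤ finrank ℝ V) (hW : finrank ℝ W = finrank ℝ V + 2)
    [TopologicalSpace M] [T2Space M] [CompactSpace M] [ConnectedSpace M]
    [ChartedSpace V M] [IsManifold 𝓘(ℝ, V) ∞ M] [MeasurableSpace M] [BorelSpace M]
    (F : M → W) (hF : ContMDiff 𝓘(ℝ, V) 𝓘(ℝ, W) ∞ F) (hS : ∀ x, ‖F x‖ = 1)
    (himm : ∀ x, Function.Injective (mfderiv 𝓘(ℝ, V) 𝓘(ℝ, W) F x))
    (hmin : ∀ x n, IsUnitNormal V F x n → meanCurv V F x n = 0) :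
    ((¬ ∃ a : W, a ≠ 0 ∧ ∀ x, ⟪F x, a⟫ = 0) →
      ENNReal.ofReal (141 / 100 * sphereVol (finrank ℝ V)) ≤ volM V F Set.univ ∧
      ENNReal.ofReal (982 / 1000 * leastClifford (finrank ℝ V)) ≤ volM V F Set.univ ∧
      (finrank ℝ V ≤ 16 →
        ENNReal.ofReal (985 / 1000 * leastClifford (finrank ℝ V)) ≤ volM V F Set.univ) ∧
      (Even (finrank ℝ V) → 4 ≤ finrank ℝ V → finrank ℝ V ≤ 16 →
        ENNReal.ofReal (leastClifford (finrank ℝ V)) ≤ volM V F Set.univ ∧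
        (volM V F Set.univ = ENNReal.ofReal (leastClifford (finrank ℝ V)) ↔
          Function.Injective F ∧ ∃ U : Submodule ℝ W, finrank ℝ U = finrank ℝ V / 2 + 1 ∧
            Set.range F =
              {z | ‖U.starProjection z‖ ^ 2 = 1 / 2 ∧ ‖z - U.starProjection z‖ ^ 2 = 1 / 2})) ∧
      ((∃ c : ℝ, ∀ x n, IsUnitNormal V F x n → normSqA V F x n = c) →
        ENNReal.ofReal (leastClifford (finrank ℝ V)) ≤ volM V F Set.univ)) ∧
    ((∀ x n, IsUnitNormal V F x n → (finrank ℝ V : ℝ) ≤ normSqA V F x n) →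
      ENNReal.ofReal (leastClifford (finrank ℝ V)) ≤ volM V F Set.univ) ∧
    1 ≤ volM V F {x | ∀ n, IsUnitNormal V F x n → (finrank ℝ V : ℝ) ≤ normSqA V F x n} /
        ENNReal.ofReal (leastClifford (finrank ℝ V)) +
      volM V F {x | ∀ n, IsUnitNormal V F x n → (finrank ℝ V : ℝ) ≤ normSqA V F x n}ᶜ /
        ENNReal.ofReal (sphereVol (finrank ℝ V)) ∧
    ((∃ N : M → W, ContMDiff 𝓘(ℝ, V) 𝓘(ℝ, W) ∞ N ∧ (∀ x, IsUnitNormal V F x (N x)) ∧
      (∀ a, ∫ x, ⟪N x, a⟫ ∂(volM V F) = 0) ∧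
      ∀ a b, ∫ x, ⟪F x, a⟫ * ⟪N x, b⟫ ∂(volM V F) = 0) →
      ENNReal.ofReal (leastClifford (finrank ℝ V)) ≤ volM V F Set.univ) ∧
    ((∀ U : Submodule ℝ W, (∀ g ∈ Isoms F, ∀ u ∈ U, g u ∈ U) → U = ⊥ ∨ U = ⊤) →
      (∀ U : Submodule ℝ W, (∀ g ∈ Isoms F, ∀ u ∈ U, g (g u) ∈ U) →
        (∀ g ∈ Reflections F, ∀ u ∈ U, g u ∈ U) → 2 * finrank ℝ U ≠ finrank ℝ W) →
      ENNReal.ofReal (leastClifford (finrank ℝ V)) ≤ volM V F Set.univ) := by
  obtain ⟨-, -, hB1, hB2, hC, hD, -, hE⟩ := VolumeGaps.result hV hW F hF hS himm hmin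
  refine ⟨fun hng => ?_, hB2, hC, ?_, hE⟩
  · obtain ⟨h1, h2, h3, h4⟩ := LeastVolumeGeneral.result hV hW F hF hS himm hmin hng
    exact ⟨h1, h2, h3, h4, fun ⟨c, hc⟩ => hB1 c hc hng⟩
  · rintro ⟨N, h1, h2, h3, h4⟩
    exact (hD N h1 h2 h3).2 h4

end Vale.Agent.Results.P224.LeastVolumeClasses
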