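import Vale.Agent.P224.MathlibUsed
import Vale.Agent.P224.Defs
import Vale.Agent.P224.Bdl.B2
import Vale.Agent.P224.POS.MainE

namespace Vale.Agent.Results.P224.LeastVolumeEven

open scoped Manifold ContDiff RealInnerProductSpace
open MeasureTheory Module Vale.Agent.P224

theorem result {V W M : Type*}
    [NormedAddCommGroup V] [InnerProductSpace ℝ V] [FiniteDimensional ℝ V]
    [MeasurableSpace V] [BorelSpace V]
    [NormedAddCommGroup W] [InnerProductSpace ℝ W] [FiniteDimensional ℝ W]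
    (hV : Even (finrank ℝ V)) (h4 : 4 ≤ finrank ℝ V) (h12 : finrank ℝ V ≤ 12)
    (hW : finrank ℝ W = finrank ℝ V + 2)
    [TopologicalSpace M] [T2Space M] [CompactSpace M] [ConnectedSpace M]
    [ChartedSpace V M] [IsManifold 𝓘(ℝ, V) ∞ M] [MeasurableSpace M] [BorelSpace M]
    (F : M → W) (hF : ContMDiff 𝓘(ℝ, V) 𝓘(ℝ, W) ∞ F) (hS : ∀ x, ‖F x‖ = 1)
    (himm : ∀ x, Function.Injective (mfderiv 𝓘(ℝ, V) 𝓘(ℝ, W) F x))
    (hmin : ∀ x n, IsUnitNormal V F x n → meanCurv V F x n = 0)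
    (hng : ¬ ∃ a : W, a ≠ 0 ∧ ∀ x, ⟪F x, a⟫ = 0) :
    ENNReal.ofReal (leastClifford (finrank ℝ V)) ≤ volM V F Set.univ := by
  have hFs : SphImm V F := ⟨hF, hS, himm⟩
  borelize W
  exact POS.mainE hV h4 h12 hW hFs hmin hng

end Vale.Agent.Results.P224.LeastVolumeEven
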