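import Vale.Agent.P224.MathlibUsed
import Vale.Agent.P224.Defs
import Vale.Agent.P224.Bdl.B2
import Vale.Agent.P224.POS.MainE2
import Vale.Agent.P224.PU.U1413.MainU
import Vale.Agent.P224.RIG.Iff
import Vale.Agent.P224.PO.AllM
import Vale.Agent.P224.PO.R3b.Main
import Vale.Agent.P224.PO.Five.IffB
import Vale.Agent.P224.PO.M7.Iff
import Vale.Agent.P224.PO.M9.Iff
import Vale.Agent.P224.PO.M11.Iff
import Vale.Agent.P224.PO.M13.Iff
import Vale.Agent.P224.PO.M15.Iff

namespace Vale.Agent.Results.P224.LeastVolumeUniform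

open scoped Manifold ContDiff RealInnerProductSpace
open MeasureTheory Module Vale.Agent.P224

theorem result {V W M : Type*}
    [NormedAddCommGroup V] [InnerProductSpace ℝ V] [FiniteDimensional ℝ V]
    [MeasurableSpace V] [BorelSpace V]
    [NormedAddCommGroup W] [InnerProductSpace ℝ W] [FiniteDimensional ℝ W]
    (hV : 2 ≤ finrank ℝ V) (hW : finrank ℝ W = finrank ℝ V + 2)
    [TopologicalSpace M] [T2Space M] [CompactSpace M] [ConnectedSpace M]
    [ChartedSpace V M] [IsManifold 𝓘(ℝ, V) ∞ M] [MeasurableSpace M] [BorelSpace M]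
    (F : M → W) (hF : ContMDiff 𝓘(ℝ, V) 𝓘(ℝ, W) ∞ F) (hS : ∀ x, ‖F x‖ = 1)
    (himm : ∀ x, Function.Injective (mfderiv 𝓘(ℝ, V) 𝓘(ℝ, W) F x))
    (hmin : ∀ x n, IsUnitNormal V F x n → meanCurv V F x n = 0)
    (hng : ¬ ∃ a : W, a ≠ 0 ∧ ∀ x, ⟪F x, a⟫ = 0) :
    ENNReal.ofReal (99 / 100 * leastClifford (finrank ℝ V)) ≤ volM V F Set.univ ∧
    ENNReal.ofReal (1413 / 1000 * sphereVol (finrank ℝ V)) ≤ volM V F Set.univ ∧
    (3 ≤ finrank ℝ V → finrank ℝ V ≤ 16 →
      ENNReal.ofReal (996 / 1000 * leastClifford (finrank ℝ V)) ≤ volM V F Set.univ) ∧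
    (4 ≤ finrank ℝ V → finrank ℝ V ≤ 16 →
      ENNReal.ofReal (leastClifford (finrank ℝ V)) ≤ volM V F Set.univ ∧
      (volM V F Set.univ = ENNReal.ofReal (leastClifford (finrank ℝ V)) ↔
        Function.Injective F ∧ ∃ U : Submodule ℝ W, finrank ℝ U = finrank ℝ V / 2 + 1 ∧
          Set.range F =
            {z | ‖U.starProjection z‖ ^ 2 = ((finrank ℝ V / 2 : ℕ) : ℝ) / finrank ℝ V ∧
              ‖z - U.starProjection z‖ ^ 2 =
                ((finrank ℝ V - finrank ℝ V / 2 : ℕ) : ℝ) / finrank ℝ V})) := by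
  have hFs : SphImm V F := ⟨hF, hS, himm⟩
  borelize W
  have hU := PU.U1413.mainU hV hW hFs hmin hng
  have hc0 : 0 ≤ leastClifford (finrank ℝ V) := leastClifford_nonneg _
  have hsharp : 4 ≤ finrank ℝ V → finrank ℝ V ≤ 16 →
      ENNReal.ofReal (leastClifford (finrank ℝ V)) ≤ volM V F Set.univ ∧
      (volM V F Set.univ = ENNReal.ofReal (leastClifford (finrank ℝ V)) ↔
        Function.Injective F ∧ ∃ U : Submodule ℝ W, finrank ℝ U = finrank ℝ V / 2 + 1 ∧
          Set.range F =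
            {z | ‖U.starProjection z‖ ^ 2 = ((finrank ℝ V / 2 : ℕ) : ℝ) / finrank ℝ V ∧
              ‖z - U.starProjection z‖ ^ 2 =
                ((finrank ℝ V - finrank ℝ V / 2 : ℕ) : ℝ) / finrank ℝ V}) := by
    intro h4 h16
    rcases Nat.even_or_odd (finrank ℝ V) with he | ho
    · refine ⟨POS.mainE16 he h4 h16 hW hFs hmin hng, ?_⟩
      rw [RIG.vol_eq_iff he h4 h16 hW hFs hmin hng]
      obtain ⟨k, hk⟩ := he
      have hk0 : (k : ℝ) ≠ 0 := by
        have : k ≠ 0 := by omega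
        exact_mod_cast this
      have e1 : ((finrank ℝ V / 2 : ℕ) : ℝ) / finrank ℝ V = 1 / 2 := by
        rw [show finrank ℝ V / 2 = k by omega, hk]
        push_cast
        field_simp
        ring
      have e2 : ((finrank ℝ V - finrank ℝ V / 2 : ℕ) : ℝ) / finrank ℝ V = 1 / 2 := by
        rw [show finrank ℝ V - finrank ℝ V / 2 = k by omega, hk]
        push_cast
        field_simp
        ring
      rw [e1, e2]
    have hcase : finrank ℝ V = 5 ∨ finrank ℝ V = 7 ∨ finrank ℝ V = 9 ∨ finrank ℝ V = 11 ∨ finrank ℝ V = 13 ∨ finrank ℝ V = 15 := by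
      have h0 := ho.pos
      obtain ⟨k, hk⟩ := ho
      omega
    rcases hcase with h | h | h | h | h | h
    · have := PO.Five.five_iffB h hW hFs hmin hng
      have e1 : ((5 / 2 : ℕ) : ℝ) / (5 : ℕ) = 2 / 5 := by norm_num
      have e2 : ((5 - 5 / 2 : ℕ) : ℝ) / (5 : ℕ) = 3 / 5 := by norm_num
      rw [h, e1, e2]
      exact this
    · rw [h]
      exact PO.M7.iff h hW hFs hmin hng
    · rw [h]
      exact PO.M9.iff h hW hFs hmin hng
    · rw [h]
      exact PO.M11.iff h hW hFs hmin hng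
    · rw [h]
      exact PO.M13.iff h hW hFs hmin hng
    · rw [h]
      exact PO.M15.iff h hW hFs hmin hng
  have h16 : 4 ≤ finrank ℝ V → finrank ℝ V ≤ 16 →
      ENNReal.ofReal (leastClifford (finrank ℝ V)) ≤ volM V F Set.univ :=
    fun h4 h16 => (hsharp h4 h16).1
  refine ⟨PO.main99 hV hW hFs hmin hng, ?_, ?_, hsharp⟩
  · refine le_trans (ENNReal.ofReal_le_ofReal ?_) hU
    have h0 : 0 ≤ sphereVol (finrank ℝ V) := (sphereVol_pos _).le
    linarith
  · intro h3 h12'
    rcases Nat.lt_or_ge (finrank ℝ V) 4 with h | h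
    · have h : finrank ℝ V = 3 := by omega
      have := PO.R3b.main h hW hFs hmin hng
      rw [h] at hc0 ⊢
      exact le_trans (ENNReal.ofReal_le_ofReal (by linarith)) this
    · exact le_trans (ENNReal.ofReal_le_ofReal (by linarith)) (h16 h h12')

end Vale.Agent.Results.P224.LeastVolumeUniform
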