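import Vale.Agent.P224.MathlibUsed
import Vale.Agent.P224.Defs
import Vale.Agent.P224.Bdl.B2
import Vale.Agent.P224.SM2.Main2

namespace Vale.Agent.Results.P224.SharpInequality

open scoped Manifold ContDiff RealInnerProductSpace
open MeasureTheory Module Vale.Agent.P224

/-- The linear isometries which preserve the image of F. -/
def Isoms {M W : Type*} [NormedAddCommGroup W] [InnerProductSpace ℝ W] (F : M → W) :
    Set (W ≃ₗᵢ[ℝ] W) :=
  {g | g '' Set.range F = Set.range F}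

/-- The reflections in hyperplanes through the origin which preserve the image of F. -/
def Reflections {M W : Type*} [NormedAddCommGroup W] [InnerProductSpace ℝ W] [FiniteDimensional ℝ W]
    (F : M → W) : Set (W ≃ₗᵢ[ℝ] W) :=
  {g | g ∈ Isoms F ∧ ∃ e : W, e ≠ 0 ∧ g = (ℝ ∙ e)ᗮ.reflection}

/-- 1 in even dimensions, 0.996 in odd dimensions. -/
noncomputable def kap (m : ℕ) : ℝ := if Even m then 1 else 0.996

lemma kst {m : ℕ} (h4 : 4 ≤ m) (h17 : m ≤ 17) : SM2.Kst m (kap m) := by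
  unfold kap
  rcases Nat.even_or_odd' m with ⟨k, rfl | rfl⟩
  · rw [if_pos (by simp)]
    exact SM2.kst_even (by omega) (by omega)
  · rw [if_neg (by simp)]
    exact SM2.kst_odd (by omega) (by omega)

theorem result {V W M : Type*}
    [NormedAddCommGroup V] [InnerProductSpace ℝ V] [FiniteDimensional ℝ V]
    [MeasurableSpace V] [BorelSpace V]
    [NormedAddCommGroup W] [InnerProductSpace ℝ W] [FiniteDimensional ℝ W]
    (hV : 4 ≤ finrank ℝ V) (hV' : finrank ℝ V ≤ 17)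
    (hW : finrank ℝ W = finrank ℝ V + 2)
    [TopologicalSpace M] [T2Space M] [CompactSpace M] [ConnectedSpace M]
    [ChartedSpace V M] [IsManifold 𝓘(ℝ, V) ∞ M] [MeasurableSpace M] [BorelSpace M]
    (F : M → W) (hF : ContMDiff 𝓘(ℝ, V) 𝓘(ℝ, W) ∞ F) (hS : ∀ x, ‖F x‖ = 1)
    (himm : ∀ x, Function.Injective (mfderiv 𝓘(ℝ, V) 𝓘(ℝ, W) F x))
    (hmin : ∀ x n, IsUnitNormal V F x n → meanCurv V F x n = 0) :
    (∀ N : M → W, ContMDiff 𝓘(ℝ, V) 𝓘(ℝ, W) ∞ N → (∀ x, IsUnitNormal V F x (N x)) →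
      kap (finrank ℝ V) * leastClifford (finrank ℝ V) * (volM V F).real Set.univ ≤
        (volM V F).real Set.univ ^ 2 +
        (finrank ℝ V : ℝ) * (finrank ℝ V - 1) / (2 * ((finrank ℝ V : ℝ) - 2) ^ 2) *
          ‖∫ x, N x ∂(volM V F)‖ ^ 2) ∧
    (∀ N : M → W, ContMDiff 𝓘(ℝ, V) 𝓘(ℝ, W) ∞ N → (∀ x, IsUnitNormal V F x (N x)) →
      (∀ a, ∫ x, ⟪N x, a⟫ ∂(volM V F) = 0) →
      ENNReal.ofReal (kap (finrank ℝ V) * leastClifford (finrank ℝ V)) ≤ volM V F Set.univ) ∧
    ((¬ ∃ a : W, a ≠ 0 ∧ ∀ x, ⟪F x, a⟫ = 0) →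
      (∀ v : W, (∀ g ∈ Isoms F, g v = v ∨ g v = -v) → (∀ g ∈ Reflections F, g v = v) → v = 0) →
      ENNReal.ofReal (kap (finrank ℝ V) * leastClifford (finrank ℝ V)) ≤ volM V F Set.univ) := by
  have hFs : SphImm V F := ⟨hF, hS, himm⟩
  have hK := kst hV hV'
  borelize W
  refine ⟨fun N hNs hN => SM2.main_defect hW hFs hmin hNs hN hK, fun N hNs hN h0 => ?_,
    fun hng hv => ?_⟩
  · refine SM2.main_balanced2 hW hFs hmin hNs hN ?_ hK
    haveI : IsFiniteMeasure (volM V F) := isFiniteMeasure_volM hFs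
    have hNc : Continuous N := hNs.continuous
    have hint : Integrable N (volM V F) := by
      refine Integrable.of_bound hNc.aestronglyMeasurable 1 (Filter.Eventually.of_forall fun x => ?_)
      rw [(hN x).1]
    refine ext_inner_right ℝ fun a => ?_
    rw [inner_zero_left, real_inner_comm, ← integral_inner hint, ← h0 a]
    exact integral_congr_ae (Filter.Eventually.of_forall fun x => real_inner_comm _ _)
  · refine SM2.main_sym2 hW hFs hmin hng (fun v h1 h2 => hv v h1 ?_) hK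
    rintro g ⟨hg, e, -, rfl⟩
    exact Vale.Agent.P224.Sym.refl_fix (h2 e hg)

end Vale.Agent.Results.P224.SharpInequality
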